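import Vale.Agent.P347Q.Final

/-!
P347: query complexity of sampling from well-conditioned log-concave densities with an exact
first-order oracle.  The dimension exponent satisfies `γ_* ≤ 1/4`.
-/

open MeasureTheory ProbabilityTheory
open scoped ENNReal

namespace Vale.Agent.Results.P347.QuarterExponent

/-- `⟨∇²V(x) h, h⟩`; the Hessian is the derivative of the gradient. -/
noncomputable def hessianForm {d : ℕ} (V : EuclideanSpace ℝ (Fin d) → ℝ)
    (x h : EuclideanSpace ℝ (Fin d)) : ℝ :=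
  inner ℝ (fderiv ℝ (gradient V) x h) h

/-- The class `𝒱_d`: `V ∈ C²(ℝ^d)`, `V(0) = 0`, `∇V(0) = 0`, `I ≤ ∇²V(x) ≤ 2I` for all `x`. -/
structure Potential (d : ℕ) (V : EuclideanSpace ℝ (Fin d) → ℝ) : Prop where
  contDiff : ContDiff ℝ 2 V
  zero : V 0 = 0
  grad_zero : gradient V 0 = 0
  hess_lower : ∀ x h : EuclideanSpace ℝ (Fin d), ‖h‖ ^ 2 ≤ hessianForm V x h
  hess_upper : ∀ x h : EuclideanSpace ℝ (Fin d), hessianForm V x h ≤ 2 * ‖h‖ ^ 2

/-- The Gibbs law `Z⁻¹ exp(-V(x)) dx`, `Z = ∫ exp(-V(x)) dx`. -/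
noncomputable def gibbsLaw {d : ℕ} (V : EuclideanSpace ℝ (Fin d) → ℝ) :
    Measure (EuclideanSpace ℝ (Fin d)) :=
  (∫⁻ x, ENNReal.ofReal (Real.exp (-V x)))⁻¹ •
    (volume : Measure (EuclideanSpace ℝ (Fin d))).withDensity
      (fun x => ENNReal.ofReal (Real.exp (-V x)))

/-- A randomised adaptive algorithm on `ℝ^d` making `q` first-order queries.  The `k`-th query point
is a measurable function of a random seed and of the `k` earlier answers (pairs of a value and a
gradient); the output is a measurable function of the seed and of all `q` answers. -/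
structure Algorithm (d q : ℕ) where
  Seed : Type
  [mSeed : MeasurableSpace Seed]
  law : Measure Seed
  [prob : IsProbabilityMeasure law]
  query : (k : ℕ) → Seed × (Fin k → ℝ × EuclideanSpace ℝ (Fin d)) → EuclideanSpace ℝ (Fin d)
  query_meas : ∀ k, Measurable (query k)
  output : Seed × (Fin q → ℝ × EuclideanSpace ℝ (Fin d)) → EuclideanSpace ℝ (Fin d)
  output_meas : Measurable output

attribute [instance] Algorithm.mSeed Algorithm.prob

/-- The first `k` answers `(V(x), ∇V(x))` received when the potential is `V` and the seed is `s`. -/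
noncomputable def Algorithm.answers {d q : ℕ} (A : Algorithm d q)
    (V : EuclideanSpace ℝ (Fin d) → ℝ) (s : A.Seed) :
    (k : ℕ) → Fin k → ℝ × EuclideanSpace ℝ (Fin d)
  | 0 => Fin.elim0
  | k + 1 => Fin.snoc (α := fun _ => ℝ × EuclideanSpace ℝ (Fin d)) (A.answers V s k)
      (V (A.query k (s, A.answers V s k)), gradient V (A.query k (s, A.answers V s k)))

/-- The law of the output when the potential is `V`. -/
noncomputable def Algorithm.outputLaw {d q : ℕ} (A : Algorithm d q)
    (V : EuclideanSpace ℝ (Fin d) → ℝ) : Measure (EuclideanSpace ℝ (Fin d)) :=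
  A.law.map (fun s => A.output (s, A.answers V s q))

/-- For every `V ∈ 𝒱_d` the output law is within total variation distance `1/10` of the Gibbs law
of `V`. -/
def Algorithm.Accurate {d q : ℕ} (A : Algorithm d q) : Prop :=
  ∀ V : EuclideanSpace ℝ (Fin d) → ℝ, Potential d V →
    ∀ B : Set (EuclideanSpace ℝ (Fin d)), MeasurableSet B →
      |(A.outputLaw V).real B - (gibbsLaw V).real B| ≤ 1 / 10

/-- `Q(d)`: the least number `q` such that some accurate algorithm makes `q` queries (`∞` if there is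
no such number). -/
noncomputable def queryComplexity (d : ℕ) : ℕ∞ :=
  sInf {n : ℕ∞ | ∃ q : ℕ, n = (q : ℕ∞) ∧ ∃ A : Algorithm d q, A.Accurate}

/-- `γ_* = limsup_{d → ∞} log Q(d) / log d`. -/
noncomputable def gammaStar : EReal :=
  Filter.limsup (fun d : ℕ => ENNReal.log (queryComplexity d : ℝ≥0∞) / ENNReal.log (d : ℝ≥0∞))
    Filter.atTop

theorem hessianForm_eq {d : ℕ} {V : EuclideanSpace ℝ (Fin d) → ℝ} (hV : ContDiff ℝ 2 V)
    (x h : EuclideanSpace ℝ (Fin d)) : hessianForm V x h = fderiv ℝ (fderiv ℝ V) x h h := by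
  have hd : DifferentiableAt ℝ (fderiv ℝ V) x :=
    ((hV.fderiv_right (m := 1) (by norm_num)).differentiable (by norm_num)) x
  have hdw : ∀ w, HasFDerivAt (fun y => fderiv ℝ V y w) ((fderiv ℝ (fderiv ℝ V) x).flip w) x := by
    intro w
    have h2 := hd.hasFDerivAt.clm_apply (hasFDerivAt_const w x)
    have e : (fderiv ℝ (fderiv ℝ V) x).flip w =
        (fderiv ℝ V x).comp (0 : EuclideanSpace ℝ (Fin d) →L[ℝ] EuclideanSpace ℝ (Fin d)) +
          (fderiv ℝ (fderiv ℝ V) x).flip w := by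
      simp
    rw [e]
    exact h2
  have hg : DifferentiableAt ℝ (gradient V) x := by
    have e : gradient V = fun y => ∑ i, (fderiv ℝ V y (P347Q.bas d i)) • P347Q.bas d i := by
      funext y
      rw [← P347Q.sum_bas (gradient V y)]
      simp only [P347Q.gradient_apply]
    rw [e]
    refine DifferentiableAt.fun_sum fun i _ => ?_
    exact (hdw _).differentiableAt.smul_const _
  have h1 : HasFDerivAt (fun y => inner ℝ (gradient V y) h)
      ((fderivInnerCLM ℝ (gradient V x, h)).comp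
        ((fderiv ℝ (gradient V) x).prod (0 : EuclideanSpace ℝ (Fin d) →L[ℝ] _))) x :=
    hg.hasFDerivAt.inner ℝ (hasFDerivAt_const h x)
  have h2 : (fun y => inner ℝ (gradient V y) h) = fun y => fderiv ℝ V y h := by
    funext y
    exact P347Q.inner_gradient V y h
  rw [h2] at h1
  have h3 := h1.unique (hdw h)
  have h4 := congrArg (fun L => L h) h3
  simp [fderivInnerCLM_apply] at h4
  exact h4

/-- conversion of a sampler into an algorithm -/
def toAlg {d q : ℕ} (S : P347Q.Sampler d q) : Algorithm d q where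
  Seed := S.Ω
  mSeed := S.mΩ
  law := S.P
  prob := S.prob
  query := fun k p => S.query k p.1 p.2
  query_meas := S.meas_query
  output := fun p => S.out p.1 p.2
  output_meas := S.meas_out

theorem answers_eq {d q : ℕ} (S : P347Q.Sampler d q) (V : EuclideanSpace ℝ (Fin d) → ℝ)
    (ω : S.Ω) (k : ℕ) : (toAlg S).answers V ω k = S.answers V ω k := by
  induction k with
  | zero => rfl
  | succ k ih =>
    show Fin.snoc _ _ = Fin.snoc _ _
    rw [ih]
    rfl

theorem exists_algorithm {d q : ℕ} (h : P347Q.Suff d q) : ∃ A : Algorithm d q, A.Accurate := by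
  obtain ⟨S, hS⟩ := h
  refine ⟨toAlg S, ?_⟩
  intro V hV B hB
  have e : (toAlg S).outputLaw V = S.law V := by
    unfold Algorithm.outputLaw P347Q.Sampler.law
    congr 1
    funext ω
    rw [answers_eq S V ω q]
    rfl
  rw [e]
  refine hS V ⟨hV.contDiff, hV.zero, hV.grad_zero, fun x h => ?_, fun x h => ?_⟩ B hB
  · rw [← hessianForm_eq hV.contDiff]
    exact hV.hess_lower x h
  · rw [← hessianForm_eq hV.contDiff]
    exact hV.hess_upper x h

/-- `γ_* ≤ 1/4`; more precisely, for every `κ > 0` and all large `d` there is an algorithm with at most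
`d^(1/4+κ)` queries that is accurate on the whole class `𝒱_d`. -/
theorem result :
    gammaStar ≤ ((1 / 4 : ℝ) : EReal) ∧
    ∀ κ : ℝ, 0 < κ → ∃ d₀ : ℕ, ∀ d : ℕ, d₀ ≤ d →
      ∃ q : ℕ, (q : ℝ) ≤ (d : ℝ) ^ (1 / 4 + κ) ∧ ∃ A : Algorithm d q, A.Accurate := by
  have main : ∀ κ : ℝ, 0 < κ → ∃ d₀ : ℕ, ∀ d : ℕ, d₀ ≤ d →
      ∃ q : ℕ, (q : ℝ) ≤ (d : ℝ) ^ (1 / 4 + κ) ∧ ∃ A : Algorithm d q, A.Accurate := by
    intro κ hκ
    obtain ⟨d₀, h⟩ := Filter.eventually_atTop.1 (P347Q.final κ hκ)
    refine ⟨d₀, fun d hd => ?_⟩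
    obtain ⟨q, hq, hs⟩ := h d hd
    exact ⟨q, hq, exists_algorithm hs⟩
  refine ⟨?_, main⟩
  have key : ∀ κ : ℝ, 0 < κ → gammaStar ≤ ((1 / 4 + κ : ℝ) : EReal) := by
    intro κ hκ
    obtain ⟨d₀, h⟩ := main κ hκ
    refine Filter.limsup_le_of_le (by isBoundedDefault) ?_
    filter_upwards [Filter.eventually_ge_atTop d₀, Filter.eventually_ge_atTop 2] with d hd hd2
    obtain ⟨q, hq, hA⟩ := h d hd
    have hD1 : (1 : ℝ) < d := by exact_mod_cast hd2
    have hlog : 0 < Real.log d := Real.log_pos hD1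
    have hQ : (queryComplexity d : ℝ≥0∞) ≤ (q : ℝ≥0∞) := by
      have : queryComplexity d ≤ (q : ℕ∞) := sInf_le ⟨q, rfl, hA⟩
      calc ((queryComplexity d : ℕ∞) : ℝ≥0∞) ≤ ((q : ℕ∞) : ℝ≥0∞) := by gcongr
        _ = (q : ℝ≥0∞) := by simp
    have hq2 : (q : ℝ≥0∞) ≤ ENNReal.ofReal ((d : ℝ) ^ (1 / 4 + κ)) := by
      rw [← ENNReal.ofReal_natCast]
      exact ENNReal.ofReal_le_ofReal hq
    have hlogd : ENNReal.log (d : ℝ≥0∞) = ((Real.log d : ℝ) : EReal) := by
      rw [← ENNReal.ofReal_natCast, ENNReal.log_ofReal_of_pos (by linarith)]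
    rw [hlogd, EReal.div_le_iff_le_mul (by exact_mod_cast hlog) (EReal.coe_ne_top _)]
    calc ENNReal.log (queryComplexity d : ℝ≥0∞) ≤
        ENNReal.log (ENNReal.ofReal ((d : ℝ) ^ (1 / 4 + κ))) := ENNReal.log_le_log (hQ.trans hq2)
      _ = ((Real.log ((d : ℝ) ^ (1 / 4 + κ)) : ℝ) : EReal) :=
          ENNReal.log_ofReal_of_pos (Real.rpow_pos_of_pos (by linarith) _)
      _ = _ := by
        rw [Real.log_rpow (by linarith)]
        push_cast
        rw [mul_comm]
  refine EReal.le_of_forall_lt_iff_le.1 fun z hz => ?_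
  have hz' : (1 / 4 : ℝ) < z := by exact_mod_cast hz
  have := key (z - 1 / 4) (by linarith)
  rwa [add_sub_cancel] at this

end Vale.Agent.Results.P347.QuarterExponent
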